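import Vale.Agent.P042.H245.PPf
import Vale.Agent.P042.H74.Ram

set_option autoImplicit false

/-!
P042, prime arguments: a polynomial together with a linear form `u + v x` whose prime values are
the admissible arguments; the local weights.
-/

namespace Vale.Agent.P042P

open Polynomial Finset Pointwise Vale.Agent.P042 Vale.Agent.P042.SS

/-- a polynomial with a linear form `u + v x` -/
structure PL extends Polynomial ℤ where
  u : ℤ
  v : ℤ

instance : CoeOut PL ℤ[X] := ⟨PL.toPolynomial⟩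

/-- `x` is admissible: `u + v x` is a prime -/
def pr (F : PL) (x : ℤ) : Prop := ∃ p : ℕ, p.Prime ∧ (p : ℤ) = F.u + F.v * x

/-- no nonzero difference `F x`, `x ≥ 1` admissible -/
def DiffFree (F : PL) (A : Finset ℤ) : Prop :=
  ((A : Set ℤ) - (A : Set ℤ)) ∩ {m : ℤ | ∃ n : ℕ, 1 ≤ n ∧ pr F n ∧ F.eval (n : ℤ) = m} ⊆ {0}

open Classical in
/-- the largest size of a subset of `{1, ..., N}` without such differences -/
noncomputable def rMax (F : PL) (N : ℕ) : ℕ :=
  ((Finset.Icc (1 : ℤ) N).powerset.filter (fun A => DiffFree F A)).sup Finset.card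

/-- the substitution `x ↦ m x + r` -/
noncomputable def fer (F : PL) (m : ℕ) (r : ℤ) : PL where
  toPolynomial := Vale.Agent.P042.H74.fer F.toPolynomial m r
  u := F.u + F.v * r
  v := F.v * m

/-- the linear form, or `1` if it is constant modulo `p` -/
noncomputable def Lp (F : PL) (p : ℕ) : ℤ[X] :=
  if (p : ℤ) ∣ F.v then 1 else C F.u + C F.v * X

/-- the sieve polynomial at `p`; it replaces the derivative -/
noncomputable def Dp (F : PL) (p : ℕ) : ℤ[X] := derivative F.toPolynomial * Lp F p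

/-- inverse of the density of the residues with `p ∤ Lp` -/
noncomputable def wl (F : PL) (p : ℕ) : ℝ := if (p : ℤ) ∣ F.v then 1 else (p : ℝ) / (p - 1)

/-- indicator of the integers that are good at all `p ∈ PP` -/
noncomputable def om (F : PL) (PP : Finset ℕ) (z : ℤ) : ℝ :=
  ∏ p ∈ PP, if (p : ℤ) ∣ (Dp F p).eval z then 0 else 1

/-- the unit weight at the primes of `q` outside `PP` -/
noncomputable def nu (F : PL) (PP : Finset ℕ) (q : ℕ) (z : ℤ) : ℝ :=
  ∏ p ∈ q.primeFactors \ PP, if (p : ℤ) ∣ (Lp F p).eval z then 0 else wl F p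

/-- complete sum with the sieve weight and the unit weight -/
noncomputable def GamW (F : PL) (PP : Finset ℕ) (a : ℤ) (q : ℕ) : ℂ :=
  (∑ z ∈ range (q * ∏ p ∈ PP, p), (om F PP z : ℂ) * ((nu F PP q z : ℂ) *
    e (a * ((F.eval (z : ℤ) : ℤ) : ℝ) / q))) / ((q * ∏ p ∈ PP, p : ℕ) : ℂ)

/-- complete sum with the unit weight only -/
noncomputable def Gam (F : PL) (a : ℤ) (q : ℕ) : ℂ :=
  (∑ z ∈ range q, (nu F ∅ q z : ℂ) * e (a * ((F.eval (z : ℤ) : ℤ) : ℝ) / q)) / (q : ℂ)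

/-- proportion of good residues mod `p` -/
noncomputable def dns (F : PL) (p : ℕ) : ℝ :=
  (((range p).filter (fun z : ℕ => ¬ (p : ℤ) ∣ (Dp F p).eval (z : ℤ))).card : ℝ) / p

/-- `p #{z good : F(z) = t} / #{z good} - 1` -/
noncomputable def kN (F : PL) (p : ℕ) (t : ℤ) : ℝ :=
  (((range p).filter (fun z : ℕ => ¬ (p : ℤ) ∣ (Dp F p).eval (z : ℤ) ∧
    (p : ℤ) ∣ F.eval (z : ℤ) - t)).card : ℝ) / dns F p - 1

/-- auxiliary data; the linear form of `H d` is that of `h` at `r d + d x` -/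
structure AuxData (h : PL) (lam : ℕ → ℕ) (r : ℕ → ℤ) (H : ℕ → PL) (R : ℕ) : Prop where
  old : Vale.Agent.P042.AuxData h.toPolynomial lam r (fun d => (H d).toPolynomial) R
  hu : ∀ d : ℕ, 1 ≤ d → (H d).u = h.u + h.v * r d
  hv : ∀ d : ℕ, 1 ≤ d → (H d).v = h.v * d

theorem fer_toP (F : PL) (m : ℕ) (r : ℤ) :
    (fer F m r).toPolynomial = Vale.Agent.P042.H74.fer F.toPolynomial m r := rfl

theorem fer_u (F : PL) (m : ℕ) (r : ℤ) : (fer F m r).u = F.u + F.v * r := rfl

theorem fer_v (F : PL) (m : ℕ) (r : ℤ) : (fer F m r).v = F.v * m := rfl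

theorem pr_fer (F : PL) (m : ℕ) (r x : ℤ) : pr (fer F m r) x ↔ pr F (m * x + r) := by
  unfold pr
  rw [fer_u, fer_v, show F.u + F.v * r + F.v * m * x = F.u + F.v * (m * x + r) by ring]

theorem Dp_eval (F : PL) (p : ℕ) (z : ℤ) :
    (Dp F p).eval z = (derivative F.toPolynomial).eval z * (Lp F p).eval z := by
  unfold Dp
  rw [eval_mul]

theorem Lp_eval (F : PL) (p : ℕ) (z : ℤ) :
    (Lp F p).eval z = if (p : ℤ) ∣ F.v then 1 else F.u + F.v * z := by
  unfold Lp
  split_ifs <;> simp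

theorem dvd_Dp (F : PL) {p : ℕ} (hp : p.Prime) (z : ℤ) : (p : ℤ) ∣ (Dp F p).eval z ↔
    (p : ℤ) ∣ (derivative F.toPolynomial).eval z ∨ (p : ℤ) ∣ (Lp F p).eval z := by
  rw [Dp_eval]
  exact (Nat.prime_iff_prime_int.1 hp).dvd_mul

theorem dvd_Lp (F : PL) {p : ℕ} (hp : p.Prime) (z : ℤ) : (p : ℤ) ∣ (Lp F p).eval z ↔
    (p : ℤ) ∣ F.u + F.v * z ∧ ¬ (p : ℤ) ∣ F.v := by
  rw [Lp_eval]
  split_ifs with h
  · refine ⟨fun h1 => absurd (isUnit_of_dvd_one h1) (Nat.prime_iff_prime_int.1 hp).not_isUnit,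
      fun h1 => absurd h h1.2⟩
  · exact ⟨fun h1 => ⟨h1, h⟩, fun h1 => h1.1⟩

end Vale.Agent.P042P
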