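import Vale.Agent.P042P.Defs
import Vale.Agent.P042.H739.FinalS

set_option autoImplicit false

/-!
P042, prime arguments: the three parts (state, circle method, lower bound of the local part).
-/

namespace Vale.Agent.P042P

open Polynomial Finset Vale.Agent.P042 Vale.Agent.P042.SS
open Vale.Agent.P042.H739 (Fs)
open Vale.Agent.P042.H245 (PPf)

/-- the properties of the extremal weight that the last step needs -/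
structure Base6 (f : PL) (κ P : ℝ) (N' : ℕ) (G : ℤ → ℝ) : Prop where
  lo : Real.exp ((1 - κ) * P) ≤ N'
  hi : (N' : ℝ) ≤ Real.exp P
  G0 : ∀ n, 0 ≤ G n
  supp : ∀ n, G n ≠ 0 → 1 ≤ n ∧ n ≤ N'
  sum : ∑ n ∈ Icc (1 : ℤ) N', G n = N'
  le : ∀ n, G n ≤ Real.exp (κ * P)
  df : ∀ n m : ℤ, G n ≠ 0 → G m ≠ 0 → ∀ x : ℕ, 1 ≤ x → pr f x → n - m = f.eval (x : ℤ) → n = m

/-- the type of the state predicate -/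
abbrev StTy := ℕ → ℕ → PL → ℝ → ℝ → ℕ → (ℤ → ℝ) → Prop

/-- the type of the weighted complete sums -/
abbrev GwTy := PL → ℝ → ℤ → ℕ → ℂ

/-- the weighted complete sums -/
noncomputable def GWf (C1 : ℝ) : GwTy := fun f P a q => GamW f (PPf C1 f.toPolynomial P) a q

/-- the weighted complete sums; the range of the sieve depends on the degree -/
noncomputable def GWk (C1f : ℕ → ℝ) : GwTy := fun f P a q =>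
  GamW f (PPf (C1f f.natDegree) f.toPolynomial P) a q

/-- the circle method for one pair of windows, signed weights, at one value of `P` -/
def ANat (GW : GwTy) (k : ℕ) (κ1 c1 thQ P : ℝ) : Prop :=
  ∀ (R : ℕ) (f : PL) (N' H h0 : ℕ) (z : ℤ) (G1 G2 : ℤ → ℝ), 1 ≤ R →
    (R : ℝ) ≤ Real.exp (κ1 * P) → f.natDegree = k → 0 < f.leadingCoeff →
    (∀ g : ℤ, (∀ j : ℕ, 1 ≤ j → g ∣ f.coeff j) → g ∣ (R : ℤ)) →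
    (∀ j : ℕ, |(f.coeff j : ℝ)| ≤ Real.exp (κ1 * P)) →
    IsCoprime f.u f.v → 1 ≤ f.v → |(f.u : ℝ)| ≤ Real.exp (κ1 * P) →
    (f.v : ℝ) ≤ Real.exp (κ1 * P) →
    Real.exp ((1 - κ1) * P) ≤ N' → (N' : ℝ) ≤ Real.exp P →
    8 * (H + h0) ≤ N' → N' ≤ 16 * H → 1 ≤ h0 → 2 * h0 ≤ H → 0 ≤ z →
    z + 3 * H + 2 * h0 ≤ N' →
    (∀ n, G1 n ≠ 0 → z + 3 * H + h0 < n ∧ n ≤ z + 3 * H + 2 * h0) →
    (∀ n, G2 n ≠ 0 → z < n ∧ n ≤ z + h0) →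
    (∀ n m : ℤ, (G1 n ≠ 0 ∨ G2 n ≠ 0) → (G1 m ≠ 0 ∨ G2 m ≠ 0) → ∀ x : ℕ, 1 ≤ x → pr f x →
      n - m = f.eval (x : ℤ) → n = m) →
    ‖∑ q ∈ Icc 1 ⌊Real.exp (thQ * P)⌋₊, ∑ a ∈ (range q).filter (Nat.Coprime q),
      GW f P a q * (Fs G1 N' ((a : ℝ) / q) * (starRingEnd ℂ) (Fs G2 N' ((a : ℝ) / q)))‖ ≤
      Real.exp (-(c1 * P)) * N' * (∑ n ∈ Icc (1 : ℤ) N', G1 n ^ 2 + ∑ n ∈ Icc (1 : ℤ) N', G2 n ^ 2)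

/-- the circle method, uniform in the content -/
def ANU (GW : GwTy) : Prop :=
  ∀ k : ℕ, 2 ≤ k → ∃ th0 : ℝ, 0 < th0 ∧ ∀ thQ : ℝ, 0 < thQ → thQ ≤ th0 →
  ∃ c1 κ1 : ℝ, 0 < c1 ∧ 0 < κ1 ∧ ∃ P0 : ℝ, ∀ P : ℝ, P0 ≤ P → ANat GW k κ1 c1 thQ P

/-- **block AN**: the circle method for the prime weight -/
def ANP : Prop := ∀ C1 : ℝ, 1 ≤ C1 → ANU (GWf C1)

/-- the lower bound for the local part, at one state; the primes of `q0` are at most `K` -/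
def LOWat (GW : GwTy) (K : ℕ) (κ0 thQ P : ℝ) (f : PL) (N' : ℕ) (G : ℤ → ℝ) : Prop :=
  ∃ (q0 z0 H h0 : ℕ) (z : ℤ) (G1 G2 : ℤ → ℝ), 1 ≤ q0 ∧ (q0 : ℝ) ≤ Real.exp (κ0 * P) ∧
    (∀ p : ℕ, p.Prime → p ∣ q0 → p ≤ K) ∧
    z0 ≤ q0 ∧ 8 * (H + h0) ≤ N' ∧ N' ≤ 16 * H ∧ 1 ≤ h0 ∧ 2 * h0 ≤ H ∧ 0 ≤ z ∧
    z + 3 * H + 2 * h0 ≤ N' ∧
    (∀ n, G1 n ≠ 0 → G n ≠ 0) ∧ (∀ n, G2 n ≠ 0 → G n ≠ 0) ∧
    (∀ n, G1 n ≠ 0 → z + 3 * H + h0 < n ∧ n ≤ z + 3 * H + 2 * h0) ∧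
    (∀ n, G2 n ≠ 0 → z < n ∧ n ≤ z + h0) ∧
    ∑ n ∈ Icc (1 : ℤ) N', G1 n ^ 2 ≤ Real.exp (κ0 * P) * N' ∧
    ∑ n ∈ Icc (1 : ℤ) N', G2 n ^ 2 ≤ Real.exp (κ0 * P) * N' ∧
    Real.exp (-(κ0 * P)) * (N' : ℝ) ^ 2 ≤
      ‖∑ q ∈ Icc 1 ⌊Real.exp (thQ * P)⌋₊, ∑ a ∈ (range q).filter (Nat.Coprime q),
        GW (fer f q0 z0) P a q *
          (Fs G1 N' ((a : ℝ) / q) * (starRingEnd ℂ) (Fs G2 N' ((a : ℝ) / q)))‖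

/-- from a dense set without differences to a state, at one value of `P`; `dl` is the defect -/
def STat (h : PL) (Hh : ℕ → PL) (κ dl P : ℝ) (Sp : PL → ℕ → (ℤ → ℝ) → Prop) : Prop :=
  ∀ N : ℕ, 1 ≤ N → Real.log N = P → ∀ A0 : Finset ℤ, A0 ⊆ Icc (1 : ℤ) N → DiffFree h A0 →
    Real.exp (-dl) * N ≤ (A0.card : ℝ) →
    ∃ (d N' : ℕ) (G : ℤ → ℝ), 1 ≤ d ∧ (d : ℝ) ≤ Real.exp (κ * P) ∧
      Base6 (Hh d) κ P N' G ∧ Sp (Hh d) N' G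

/-- from a dense set without differences to an extremal state; `c` depends on `k, R, κ` only -/
def STATEU (St : StTy) : Prop :=
  ∀ (k R : ℕ) (κ : ℝ), 2 ≤ k → 1 ≤ R → 0 < κ → κ ≤ 1 / 8 → ∃ c : ℝ, 0 < c ∧ ∃ P0 : ℝ,
  ∀ (h : PL) (lam0 : ℕ → ℕ) (r : ℕ → ℤ) (Hh : ℕ → PL),
    AuxData h lam0 r Hh R → h.natDegree = k → 0 < h.leadingCoeff → ∀ P : ℝ, P0 ≤ P →
    STat h Hh κ (c * P) P (fun f N' G => St k R f κ P N' G)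

/-- every state has a large local part -/
def LOWERF (GW : GwTy) (St : StTy) : Prop :=
  ∀ k R : ℕ, 2 ≤ k → 1 ≤ R → ∀ thQ κ0 : ℝ, 0 < thQ → thQ ≤ 1 / 16 → 0 < κ0 →
  ∃ κ : ℝ, 0 < κ ∧ κ ≤ κ0 ∧ ∃ (K : ℕ) (P0 : ℝ), ∀ P : ℝ, P0 ≤ P →
  ∀ (f : PL) (N' : ℕ) (G : ℤ → ℝ), f.natDegree = k → 0 < f.leadingCoeff →
    (∀ g : ℤ, (∀ j : ℕ, 1 ≤ j → g ∣ f.coeff j) → g ∣ (R : ℤ)) →
    (∀ j : ℕ, |(f.coeff j : ℝ)| ≤ Real.exp (2 * k * κ * P)) →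
    Base6 f κ P N' G → St k R f κ P N' G → LOWat GW K κ0 thQ P f N' G

/-- **block PORT**: the state and the lower bound, for one state predicate -/
def PORT : Prop :=
  ∃ (C1 : ℕ → ℝ) (St : StTy), (∀ k, 1 ≤ C1 k) ∧ STATEU St ∧ LOWERF (GWk C1) St

end Vale.Agent.P042P
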