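import Vale.Agent.P042.Defs

set_option autoImplicit false

/-!
P042, prime arguments: the definitions of the statement.
-/

namespace Vale.Agent.P042P

open Polynomial Pointwise

/-- `h` has, modulo every `q ≥ 1`, a root coprime to `q`. -/
def PrimeIntersective (h : ℤ[X]) : Prop :=
  ∀ q : ℕ, 1 ≤ q → ∃ t : ℤ, IsCoprime t (q : ℤ) ∧ (q : ℤ) ∣ h.eval t

/-- `(A - A) ∩ {h(p) : p prime} ⊆ {0}`. -/
def PrimeDiffFree (h : ℤ[X]) (A : Finset ℤ) : Prop :=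
  ((A : Set ℤ) - (A : Set ℤ)) ∩ {m : ℤ | ∃ p : ℕ, p.Prime ∧ h.eval (p : ℤ) = m} ⊆ {0}

open Classical in
/-- the largest size of a subset of `{1, ..., N}` with no nonzero difference `h(p)`, `p` prime -/
noncomputable def rMaxPrime (h : ℤ[X]) (N : ℕ) : ℕ :=
  ((Finset.Icc (1 : ℤ) N).powerset.filter (fun A => PrimeDiffFree h A)).sup Finset.card

/-- the prime clause -/
def PrimeClause : Prop :=
  ∀ k : ℕ, 2 ≤ k → ∃ c : ℝ, 0 < c ∧ ∀ h : ℤ[X], h.natDegree = k → 0 < h.leadingCoeff →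
    PrimeIntersective h →
    ∃ C : ℝ, 0 < C ∧ ∀ N : ℕ, 1 ≤ N → (rMaxPrime h N : ℝ) ≤ C * (N : ℝ) ^ (1 - c)

end Vale.Agent.P042P
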